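import Vale.Agent.P181.TRT.Defs

set_option autoImplicit false

/-! # P181, TRT: (TR9) -/

namespace Vale.Agent.P181.TRT.H406

open Vale.Agent.P181.TRT

/-- the length of the column `f` of an antitone family -/
def lenC {m : ℕ} (c : Fin m → ℕ) (f : ℕ) : ℕ := (Finset.univ.filter fun j => f < c j).card

theorem lt_lenC {m : ℕ} {c : Fin m → ℕ} (hc : Antitone c) (f : ℕ) (i : Fin m) :
    (i : ℕ) < lenC c f ↔ f < c i := by
  unfold lenC
  constructor
  · intro h
    by_contra hn
    have h1 : (Finset.univ.filter fun j => f < c j) ⊆ Finset.Iio i := by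
      intro j hj
      rw [Finset.mem_filter] at hj
      rw [Finset.mem_Iio]
      by_contra h2
      exact hn (lt_of_lt_of_le hj.2 (hc (not_lt.1 h2)))
    have h2 := Finset.card_le_card h1
    rw [Fin.card_Iio] at h2
    omega
  · intro h
    have h1 : Finset.Iic i ⊆ (Finset.univ.filter fun j => f < c j) := by
      intro j hj
      rw [Finset.mem_Iic] at hj
      rw [Finset.mem_filter]
      exact ⟨Finset.mem_univ _, lt_of_lt_of_le h (hc hj)⟩
    have h2 := Finset.card_le_card h1
    rw [Fin.card_Iic] at h2
    omega

theorem sum_ite_lt (F c : ℕ) (h : c ≤ F) : ∑ f : Fin F, (if (f : ℕ) < c then 1 else 0) = c := by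
  rw [Fin.sum_univ_eq_sum_range (fun f => if f < c then 1 else 0) F, ← Finset.sum_filter]
  have e : (Finset.range F).filter (fun f => f < c) = Finset.range c := by
    ext f
    simp only [Finset.mem_filter, Finset.mem_range]
    omega
  rw [e]
  simp

/-- **(TR9)** -/
theorem cutT : CutT := by
  intro m x T F lo hi mu hmu hT hlo h1 h2
  have hq : ∀ a d : ℕ, (a + d) / T ≤ a / T + d := by
    intro a d
    calc (a + d) / T ≤ (a + T * d) / T := Nat.div_le_div_right (by nlinarith)
      _ = a / T + d := Nat.add_mul_div_left a d hT
  have hanti : Antitone (cut x T F mu) := by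
    intro i j hij
    unfold cut
    exact min_le_min le_rfl (Nat.div_le_div_right (Nat.sub_le_sub_right (hmu hij) x))
  refine ⟨fun i => ?_, hanti, fun i j hij => ?_, fun ι _ hι => ?_⟩
  · unfold cut
    calc T * min F ((mu i - x) / T) ≤ T * ((mu i - x) / T) := Nat.mul_le_mul_left T (min_le_right _ _)
      _ ≤ mu i - x := Nat.mul_div_le _ _
      _ ≤ mu i := Nat.sub_le _ _
  · have h3 := hmu hij
    have h4 : (mu i - x) / T ≤ (mu j - x) / T + (mu i - mu j) := by
      have h5 := hq (mu j - x) (mu i - mu j)
      refine le_trans (Nat.div_le_div_right ?_) h5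
      omega
    have h6 : (mu j - x) / T ≤ mu j - x := Nat.div_le_self _ _
    simp only [cut]
    omega
  · let e : ι ≃ Fin F := Fintype.equivFinOfCardEq hι
    have hF : ∀ i, cut x T F mu i ≤ F := fun i => min_le_left _ _
    refine ⟨fun f => lenC (cut x T F mu) (e f), fun f => ⟨?_, ?_, ?_⟩, ?_⟩
    · have h3 : (Finset.univ.filter fun i : Fin m => (i : ℕ) < lo) ⊆
          Finset.univ.filter fun j => ((e f : Fin F) : ℕ) < cut x T F mu j := by
        intro i hi'
        rw [Finset.mem_filter] at hi' ⊢
        refine ⟨Finset.mem_univ _, ?_⟩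
        have h4 := h1 i hi'.2
        have h5 : F ≤ (mu i - x) / T := by
          rw [Nat.le_div_iff_mul_le hT]
          have : F * T = T * F := Nat.mul_comm _ _
          omega
        have h6 : cut x T F mu i = F := by
          unfold cut
          exact min_eq_left h5
        rw [h6]
        exact (e f).2
      have h4 : (Finset.univ.filter fun i : Fin m => (i : ℕ) < lo).card = lo := by
        rw [Fin.card_filter_val_lt]
        omega
      have h5 := Finset.card_le_card h3
      rw [h4] at h5
      exact h5
    · by_contra hcon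
      push Not at hcon
      have hm : lenC (cut x T F mu) (e f) ≤ m := by
        unfold lenC
        refine (Finset.card_le_univ _).trans ?_
        rw [Fintype.card_fin]
      have hlt : hi < m := lt_of_lt_of_le hcon hm
      have h3 := (lt_lenC hanti (e f) ⟨hi, hlt⟩).1 hcon
      have h4 := h2 ⟨hi, hlt⟩ le_rfl
      have h5 : (mu ⟨hi, hlt⟩ - x) / T = 0 := Nat.div_eq_of_lt (by omega)
      have h6 : cut x T F mu ⟨hi, hlt⟩ = 0 := by
        unfold cut
        rw [h5]
        exact Nat.min_zero _
      omega
    · unfold lenC
      refine (Finset.card_le_univ _).trans ?_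
      rw [Fintype.card_fin]
    · funext i
      rw [Finset.sum_apply]
      have h3 : ∀ f : ι, col m (lenC (cut x T F mu) (e f)) i =
          if ((e f : Fin F) : ℕ) < cut x T F mu i then 1 else 0 := by
        intro f
        unfold col
        simp only [lt_lenC hanti]
      simp only [h3]
      rw [Equiv.sum_comp e (fun f : Fin F => if (f : ℕ) < cut x T F mu i then 1 else 0)]
      exact sum_ite_lt F _ (hF i)

end Vale.Agent.P181.TRT.H406
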